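import Vale.Agent.P146.Cycles

/-!
The covariance of the log partition function with a cycle, expanded by Gaussian integration by
parts into products of Gibbs means: the single replica term gives `β^k`, every other term is
bounded by the overlap of two replicas.
-/

namespace Vale.Agent.P146

open Finset MeasureTheory ProbabilityTheory Real Filter
open Vale.Agent.P150 Vale.Agent.P150.Slow

variable {n m : ℕ}

/-- The Gibbs mean. -/
noncomputable def mu (β : ℝ) (g : Fin n × Fin n → ℝ) (f : (Fin n → Bool) → ℝ) : ℝ :=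
  av (cpl n β) g f

lemma mu_eq (β : ℝ) (g : Fin n × Fin n → ℝ) (f : (Fin n → Bool) → ℝ) :
    mu β g f = ∑ x, P β g x * f x := av_cpl β g f

lemma mu_one (β : ℝ) (g : Fin n × Fin n → ℝ) : mu β g (fun _ => 1) = 1 := by
  simp [mu_eq, P_sum]

lemma abs_prod_X (S : Finset (Fin n × Fin n)) (x : Fin n → Bool) : |∏ e ∈ S, X e x| = 1 := by
  rw [abs_prod]; exact prod_eq_one fun e _ => abs_X e x

/-- The product of pair spins along some edges of a closed tuple. -/
def edgeX (i : Fin (m + 3) → Fin n) (S : Finset (Fin (m + 3))) (x : Fin n → Bool) : ℝ :=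
  ∏ l ∈ S, X (ed i l) x

lemma abs_edgeX (i : Fin (m + 3) → Fin n) (S : Finset (Fin (m + 3))) (x : Fin n → Bool) :
    |edgeX i S x| = 1 := by
  rw [edgeX, abs_prod]; exact prod_eq_one fun l _ => abs_X _ x

lemma abs_mu_edgeX (β : ℝ) (g : Fin n × Fin n → ℝ) (i : Fin (m + 3) → Fin n)
    (S : Finset (Fin (m + 3))) : |mu β g (edgeX i S)| ≤ 1 := by
  rw [mu_eq]
  refine (abs_sum_le_sum_abs _ _).trans (le_of_eq ?_)
  simp [abs_mul, abs_edgeX, abs_of_pos (P_pos β g _), P_sum]

/-- The product over replicas of the Gibbs means of the edges assigned to each replica. -/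
noncomputable def val (β : ℝ) (i : Fin (m + 3) → Fin n) (a : Fin (m + 3) → ℕ)
    (S : Finset (Fin (m + 3))) (r : ℕ) (g : Fin n × Fin n → ℝ) : ℝ :=
  ∏ s ∈ range r, mu β g (edgeX i (S.filter fun l => a l = s))

lemma abs_val (β : ℝ) (i : Fin (m + 3) → Fin n) (a : Fin (m + 3) → ℕ)
    (S : Finset (Fin (m + 3))) (r : ℕ) (g : Fin n × Fin n → ℝ) : |val β i a S r g| ≤ 1 := by
  rw [val, abs_prod]
  exact Finset.prod_le_one (fun _ _ => abs_nonneg _) fun s _ => abs_mu_edgeX β g i _

@[fun_prop]
lemma continuous_val (β : ℝ) (i : Fin (m + 3) → Fin n) (a : Fin (m + 3) → ℕ)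
    (S : Finset (Fin (m + 3))) (r : ℕ) : Continuous (val β i a S r) :=
  continuous_finsetProd _ fun _ _ => continuous_av _ _

lemma cpl_ed {i : Fin (m + 3) → Fin n} (hi : Function.Injective i) (β : ℝ) (l : Fin (m + 3))
    (x : Fin n → Bool) : cpl n β (ed i l) x = β / √n * X (ed i l) x := by
  simp [cpl, ed_mem hi l]

lemma filter_update_self {S : Finset (Fin (m + 3))} {l : Fin (m + 3)} (hl : l ∉ S)
    (a : Fin (m + 3) → ℕ) (s t : ℕ) :
    (insert l S).filter (fun k => Function.update a l s k = t) =
      if t = s then insert l (S.filter fun k => a k = t) else S.filter fun k => a k = t := by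
  ext k
  by_cases hk : k = l
  · subst hk
    by_cases ht : t = s
    · simp [ht]
    · simp [ht, hl, Ne.symm ht]
  · by_cases ht : t = s <;> simp [hk, ht]

/-- The derivative of a product of Gibbs means in the coordinate of a further edge. -/
lemma hasDeriv_val {β : ℝ} {i : Fin (m + 3) → Fin n} (hi : Function.Injective i)
    {S : Finset (Fin (m + 3))} {l : Fin (m + 3)} (hl : l ∉ S) {a : Fin (m + 3) → ℕ} {r : ℕ}
    (ha : ∀ k ∈ S, a k < r) (g : Fin n × Fin n → ℝ) (t : ℝ) :
    HasDerivAt (fun y => val β i a S r (Function.update g (ed i l) y))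
      (β / √n * (∑ s ∈ range r, val β i (Function.update a l s) (insert l S) r
          (Function.update g (ed i l) t) -
        r * val β i (Function.update a l r) (insert l S) (r + 1) (Function.update g (ed i l) t))) t
      := by
  classical
  set e := ed i l
  set g' := Function.update g e t
  refine (HasDerivAt.fun_finsetProd (u := range r) fun s _ =>
    hasDeriv_av (cpl n β) (edgeX i (S.filter fun k => a k = s)) e g t).congr_deriv ?_
  have hcard : (r : ℝ) * val β i (Function.update a l r) (insert l S) (r + 1) g' =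
      ∑ _s ∈ range r, val β i (Function.update a l r) (insert l S) (r + 1) g' := by
    rw [sum_const, card_range, nsmul_eq_mul]
  rw [hcard, ← sum_sub_distrib, mul_sum]
  refine sum_congr rfl fun s hs => ?_
  have hb : ∀ f : (Fin n → Bool) → ℝ,
      av (cpl n β) g' (fun x => f x * cpl n β e x) = β / √n * mu β g' (fun x => X e x * f x) := by
    intro f
    rw [mu, ← av_mul_const]
    congr 1; funext x; rw [cpl_ed hi]; ring
  have hb1 : av (cpl n β) g' (cpl n β e) = β / √n * mu β g' (X e) := by
    rw [mu, ← av_mul_const]; congr 1; funext x; exact cpl_ed hi β l x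
  have hins : ∀ T : Finset (Fin (m + 3)), l ∉ T →
      (fun x => X e x * edgeX i T x) = edgeX i (insert l T) := fun T hT => by
    funext x; rw [edgeX, edgeX, prod_insert hT]
  have v1 : val β i (Function.update a l s) (insert l S) r g' =
      (∏ j ∈ (range r).erase s, mu β g' (edgeX i (S.filter fun k => a k = j))) *
        mu β g' (fun x => X e x * edgeX i (S.filter fun k => a k = s) x) := by
    rw [val, ← prod_erase_mul _ _ hs]
    congr 1
    · refine prod_congr rfl fun j hj => ?_
      rw [filter_update_self hl, if_neg (ne_of_mem_erase hj)]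
    · rw [filter_update_self hl, if_pos rfl, hins _ (fun h => hl (mem_filter.mp h).1)]
  have v2 : val β i (Function.update a l r) (insert l S) (r + 1) g' =
      (∏ j ∈ (range r).erase s, mu β g' (edgeX i (S.filter fun k => a k = j))) *
        (mu β g' (edgeX i (S.filter fun k => a k = s)) * mu β g' (X e)) := by
    rw [← mul_assoc, prod_erase_mul _ _ hs, val, prod_range_succ]
    congr 1
    · refine prod_congr rfl fun j hj => ?_
      rw [filter_update_self hl, if_neg (Nat.ne_of_lt (mem_range.mp hj))]
    · rw [filter_update_self hl, if_pos rfl]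
      have : S.filter (fun k => a k = r) = ∅ :=
        filter_eq_empty_iff.mpr fun k hk h => (ha k hk).ne h
      rw [this]
      congr 1; funext x; simp [edgeX, e]
  simp only [smul_eq_mul]
  rw [hb, hb1, v1, v2]
  simp only [mu]
  ring

/-- The monomial of some edges. -/
def psi (i : Fin (m + 3) → Fin n) (L : Finset (Fin (m + 3))) (g : Fin n × Fin n → ℝ) : ℝ :=
  mon (L.image (ed i)) g

lemma psi_insert {i : Fin (m + 3) → Fin n} (hi : Function.Injective i) {L : Finset (Fin (m + 3))}
    {l : Fin (m + 3)} (hl : l ∉ L) (g : Fin n × Fin n → ℝ) :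
    psi i (insert l L) g = g (ed i l) * psi i L g := by
  classical
  rw [psi, psi, mon, mon, image_insert, prod_insert]
  simp only [mem_image, not_exists, not_and]
  exact fun k hk h => hl (ed_inj hi h ▸ hk)

lemma integrable_psi_val (β : ℝ) (i : Fin (m + 3) → Fin n) (a : Fin (m + 3) → ℕ)
    (L S : Finset (Fin (m + 3))) (r : ℕ) :
    Integrable (fun g => psi i L g * val β i a S r g) (stdPi (Fin n × Fin n)) :=
  (integrable_mon _).mul_bdd (c := 1) (continuous_val β i a S r).aestronglyMeasurable
    (ae_of_all _ fun g => abs_val β i a S r g)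

/-- The averaged term of a state. -/
noncomputable def term (β : ℝ) (i : Fin (m + 3) → Fin n) (a : Fin (m + 3) → ℕ)
    (L S : Finset (Fin (m + 3))) (r : ℕ) : ℝ :=
  ∫ g, psi i L g * val β i a S r g ∂stdPi (Fin n × Fin n)

/-- One step of integration by parts. -/
lemma term_step {β : ℝ} {i : Fin (m + 3) → Fin n} (hi : Function.Injective i)
    {L S : Finset (Fin (m + 3))} {l : Fin (m + 3)} (hlL : l ∉ L) (hl : l ∉ S)
    {a : Fin (m + 3) → ℕ} {r : ℕ} (ha : ∀ k ∈ S, a k < r) :
    term β i a (insert l L) S r = β / √n *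
      (∑ s ∈ range r, term β i (Function.update a l s) L (insert l S) r -
        r * term β i (Function.update a l r) L (insert l S) (r + 1)) := by
  classical
  simp only [term]
  set G' := fun g => β / √n * (∑ s ∈ range r, val β i (Function.update a l s) (insert l S) r g -
    r * val β i (Function.update a l r) (insert l S) (r + 1) g) with hG'
  have hB : ∀ g, |G' g| ≤ |β / √n| * (r + r) := by
    intro g
    simp only [hG', abs_mul]
    refine mul_le_mul_of_nonneg_left ((abs_sub _ _).trans (add_le_add ?_ ?_)) (abs_nonneg _)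
    · refine (abs_sum_le_sum_abs _ _).trans ((sum_le_sum fun s _ => abs_val ..).trans ?_)
      simp
    · rw [abs_mul, Nat.abs_cast]
      exact mul_le_of_le_one_right (Nat.cast_nonneg r) (abs_val ..)
  have hG'c : Continuous G' := by simp only [hG']; fun_prop
  have i2 : Integrable (fun g => psi i L g * G' g) (stdPi (Fin n × Fin n)) :=
    (integrable_mon _).mul_bdd (c := |β / √n| * (r + r)) hG'c.aestronglyMeasurable
      (ae_of_all _ hB)
  have key := ibp_mul (ed i l) (psi i L) (val β i a S r) G' (fun g x => ?_)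
    (continuous_mon _).measurable (continuous_val β i a S r).measurable hG'c.measurable
    (fun g x => hasDeriv_val hi hl ha g x) hB
    ((integrable_psi_val β i a (insert l L) S r).congr
      (ae_of_all _ fun g => by simp only [psi_insert hi hlL])) i2
  · simp only [psi_insert hi hlL]
    rw [key]
    simp only [hG']
    have e : ∀ g, psi i L g * (β / √n * (∑ s ∈ range r,
        val β i (Function.update a l s) (insert l S) r g -
        r * val β i (Function.update a l r) (insert l S) (r + 1) g)) =
        β / √n * (∑ s ∈ range r, psi i L g * val β i (Function.update a l s) (insert l S) r g -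
          r * (psi i L g * val β i (Function.update a l r) (insert l S) (r + 1) g)) := fun g => by
      rw [← mul_sum]; ring
    simp only [e]
    rw [integral_const_mul, integral_sub (integrable_finsetSum _ fun s _ =>
      integrable_psi_val β i _ L _ r) ((integrable_psi_val β i _ L _ (r + 1)).const_mul _),
      integral_finsetSum _ (fun s _ => integrable_psi_val β i _ L _ r), integral_const_mul]
  · simp only [psi, mon]
    refine prod_congr rfl fun k hk => ?_
    simp only [mem_image] at hk
    obtain ⟨j, hj, rfl⟩ := hk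
    rw [Function.update_of_ne fun h => hlL (by rwa [ed_inj hi h] at hj)]

/-- The error scale. -/
noncomputable def err (n m : ℕ) (β lam : ℝ) : ℝ :=
  Q n β / (2 * lam) + lam / 2 + (m + 3 : ℝ) ^ 2 / n

lemma err_nonneg (n m : ℕ) (β : ℝ) {lam : ℝ} (hlam : 0 < lam) : 0 ≤ err n m β lam := by
  have := Q_nonneg (n := n) β
  unfold err; positivity

lemma descFactorial_ge (n m : ℕ) :
    ((n : ℝ) ^ (m + 3)) * (1 - (m + 3 : ℝ) ^ 2 / n) ≤ n.descFactorial (m + 3) := by
  rcases le_or_gt (m + 3) n with h | h
  · have hn : (0 : ℝ) < n := by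
      have : 0 < n := by omega
      exact_mod_cast this
    have h1 : ((n + 1 - (m + 3)) ^ (m + 3) : ℕ) ≤ n.descFactorial (m + 3) :=
      Nat.pow_sub_le_descFactorial n (m + 3)
    have hk : (m + 3 : ℝ) ≤ n := by exact_mod_cast h
    have h2 : ((n : ℝ) - (m + 3)) ^ (m + 3) ≤ (n.descFactorial (m + 3) : ℝ) := by
      refine le_trans ?_ (Nat.cast_le.mpr h1)
      have e : ((n + 1 - (m + 3) : ℕ) : ℝ) = n - (m + 2) := by
        rw [Nat.cast_sub (by omega)]; push_cast; ring
      rw [Nat.cast_pow, e]
      exact pow_le_pow_left₀ (by linarith) (by linarith) _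
    refine le_trans ?_ h2
    rw [show ((n : ℝ) - (m + 3)) ^ (m + 3) =
        (n : ℝ) ^ (m + 3) * (1 + -((m + 3 : ℝ) / n)) ^ (m + 3) by
      rw [← mul_pow]; congr 1; field_simp; ring]
    refine mul_le_mul_of_nonneg_left (le_trans (le_of_eq ?_) (one_add_mul_le_pow
      (a := -((m + 3 : ℝ) / n)) ?_ (m + 3))) (by positivity)
    · push_cast; ring
    · have : (m + 3 : ℝ) / n ≤ 1 := (div_le_one hn).mpr hk
      linarith
  · rcases Nat.eq_zero_or_pos n with rfl | hn
    · simp
    refine le_trans (mul_nonpos_of_nonneg_of_nonpos (by positivity) ?_) (Nat.cast_nonneg _)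
    have hk : (n : ℝ) ≤ m + 3 := by exact_mod_cast h.le
    have hn' : (1 : ℝ) ≤ n := by exact_mod_cast hn
    rw [sub_nonpos, le_div_iff₀ (by linarith), one_mul]
    nlinarith

lemma sum_P_prod {κ : Type*} [Fintype κ] [DecidableEq κ] (β : ℝ) (g : Fin n × Fin n → ℝ)
    (p q : κ) (hpq : p ≠ q) :
    ∑ x : κ → Fin n → Bool, (∏ s, P β g (x s)) * ov (x p) (x q) = Slow.q β g := by
  classical
  have hov : ∀ u v : Fin n → Bool, ov u v = ((n : ℝ) ^ 2)⁻¹ *
      ∑ a, ∑ b, (spin (u a) * spin (u b)) * (spin (v a) * spin (v b)) := by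
    intro u v
    rw [ov, div_pow, sq, sum_mul_sum, div_eq_inv_mul]
    congr 1
    exact sum_congr rfl fun a _ => sum_congr rfl fun b _ => by ring
  have hone : ∀ f : (Fin n → Bool) → ℝ,
      ∑ x : κ → Fin n → Bool, (∏ s, P β g (x s)) * (f (x p) * f (x q)) =
        (∑ u, P β g u * f u) ^ 2 := by
    intro f
    have e : ∀ x : κ → Fin n → Bool, (∏ s, P β g (x s)) * (f (x p) * f (x q)) =
        ∏ s, P β g (x s) * if s ∈ ({p, q} : Finset κ) then f (x s) else 1 := by
      intro x
      rw [prod_mul_distrib, prod_ite_mem, univ_inter, prod_pair hpq]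
    simp only [e]
    rw [← Fintype.prod_sum fun s u => P β g u * if s ∈ ({p, q} : Finset κ) then f u else 1]
    have e2 : ∀ s, (∑ u, P β g u * if s ∈ ({p, q} : Finset κ) then f u else 1) =
        if s ∈ ({p, q} : Finset κ) then ∑ u, P β g u * f u else 1 := by
      intro s; split_ifs
      · rfl
      · simp [P_sum]
    simp only [e2, prod_ite_mem, univ_inter, prod_pair hpq, sq]
  have hl : ∑ x : κ → Fin n → Bool, (∏ s, P β g (x s)) * ov (x p) (x q) =
      ((n : ℝ) ^ 2)⁻¹ * ∑ a, ∑ b, (∑ u, P β g u * (spin (u a) * spin (u b))) ^ 2 := by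
    have e : ∀ x : κ → Fin n → Bool, (∏ s, P β g (x s)) * ov (x p) (x q) = ((n : ℝ) ^ 2)⁻¹ *
        ∑ a, ∑ b, (∏ s, P β g (x s)) *
          ((spin (x p a) * spin (x p b)) * (spin (x q a) * spin (x q b))) := by
      intro x; rw [hov]; simp only [← mul_sum]; ring
    simp only [e]
    rw [← mul_sum]
    congr 1
    rw [sum_comm]
    refine sum_congr rfl fun a _ => ?_
    rw [sum_comm]
    exact sum_congr rfl fun b _ => hone fun u => spin (u a) * spin (u b)
  rw [hl, q_eq]
  have e : ∀ u v, P β g u * P β g v * ov u v = ((n : ℝ) ^ 2)⁻¹ *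
      ∑ a, ∑ b, (P β g u * (spin (u a) * spin (u b))) * (P β g v * (spin (v a) * spin (v b))) := by
    intro u v
    rw [hov, mul_left_comm]
    congr 1
    simp only [mul_sum]
    exact sum_congr rfl fun a _ => sum_congr rfl fun b _ => by ring
  simp only [e, sq, sum_mul_sum]
  simp only [← mul_sum (a := ((n : ℝ) * (n : ℝ))⁻¹)]
  congr 1
  conv_rhs => arg 2; ext u; rw [sum_comm]
  conv_rhs => rw [sum_comm]
  refine sum_congr rfl fun a _ => ?_
  conv_rhs => arg 2; ext u; rw [sum_comm]
  rw [sum_comm]

lemma exists_change (a : Fin (m + 3) → ℕ) (h : ∃ l l', a l ≠ a l') : ∃ l, a (l + 1) ≠ a l := by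
  by_contra hc
  push Not at hc
  have : ∀ l : Fin (m + 3), a l = a 0 := by
    intro l
    induction l using Fin.induction with
    | zero => rfl
    | succ l ih => rw [← ih, ← Fin.coeSucc_eq_succ, hc]
  obtain ⟨l, l', hl⟩ := h
  exact hl ((this l).trans (this l').symm)

/-- A term with all edges processed, two of them in different replicas, is small. -/
lemma mixed_final (a : Fin (m + 3) → ℕ) (r : ℕ) (ha : ∀ l, a l < r)
    (hne : ∃ l l', a l ≠ a l') (β : ℝ) {lam : ℝ} (hlam : 0 < lam) (hn : 0 < n) :
    |∑ i ∈ cyc n m, term β i a ∅ univ r| ≤ (n : ℝ) ^ (m + 3) * err n m β lam := by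
  classical
  have hn' : (0 : ℝ) < n := by exact_mod_cast hn
  set μ := stdPi (Fin n × Fin n)
  set D : ℝ := (n : ℝ) ^ (m + 3) * ((m + 3 : ℝ) ^ 2 / n)
  obtain ⟨l₀, hl₀⟩ := exists_change a hne
  set b : Fin (m + 3) → Fin r := fun l => ⟨a l, ha l⟩
  have hb : b (l₀ + 1) ≠ b l₀ := fun h => hl₀ (Fin.ext_iff.mp h)
  have hpt : ∀ g, |∑ i ∈ cyc n m, val β i a univ r g| ≤
      D + (n : ℝ) ^ (m + 3) * (Slow.q β g / (2 * lam) + lam / 2) := by
    intro g
    have hall : |∑ i : Fin (m + 3) → Fin n, val β i a univ r g| ≤
        (n : ℝ) ^ (m + 3) * (Slow.q β g / (2 * lam) + lam / 2) := by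
      have e1 : ∀ i : Fin (m + 3) → Fin n, val β i a univ r g =
          ∑ x : Fin r → Fin n → Bool, (∏ s, P β g (x s)) *
            ∏ l, (spin (x (b (l - 1)) (i l)) * spin (x (b l) (i l))) := by
        intro i
        simp only [val, mu_eq]
        rw [prod_range fun s =>
          ∑ x, P β g x * edgeX i (univ.filter fun l => a l = s) x, Fintype.prod_sum]
        refine sum_congr rfl fun x _ => ?_
        rw [prod_mul_distrib]
        congr 1
        simp only [edgeX, X_mk', ed]
        have e : ∀ s : Fin r, univ.filter (fun l => a l = (s : ℕ)) = univ.filter fun l => b l = s :=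
          fun s => filter_congr fun l _ => by simp [b, Fin.ext_iff]
        simp only [e]
        have e' : ∀ s : Fin r, ∏ l ∈ univ.filter (fun l => b l = s),
            spin (x s (i l)) * spin (x s (i (l + 1))) = ∏ l ∈ univ.filter (fun l => b l = s),
            spin (x (b l) (i l)) * spin (x (b l) (i (l + 1))) := fun s =>
          prod_congr rfl fun l hl => by rw [(mem_filter.mp hl).2]
        simp only [e']
        rw [prod_fiberwise, prod_mul_distrib, prod_mul_distrib, mul_comm]
        congr 1
        exact Fintype.prod_equiv (Equiv.addRight (1 : Fin (m + 3))) _ _ fun l => by simp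
      simp only [e1]
      rw [sum_comm]
      have e2 : ∀ x : Fin r → Fin n → Bool, ∑ i : Fin (m + 3) → Fin n, (∏ s, P β g (x s)) *
          ∏ l, (spin (x (b (l - 1)) (i l)) * spin (x (b l) (i l))) = (∏ s, P β g (x s)) *
          ∏ l, ∑ v, spin (x (b (l - 1)) v) * spin (x (b l) v) := by
        intro x
        rw [← mul_sum, ← Fintype.prod_sum fun l v => spin (x (b (l - 1)) v) * spin (x (b l) v)]
      simp only [e2]
      have bound : ∀ x : Fin r → Fin n → Bool,
          |∏ l, ∑ v, spin (x (b (l - 1)) v) * spin (x (b l) v)| ≤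
            (n : ℝ) ^ (m + 3) * (ov (x (b l₀)) (x (b (l₀ + 1))) / (2 * lam) + lam / 2) := by
        intro x
        rw [abs_prod, ← prod_erase_mul _ _ (mem_univ (l₀ + 1)), add_sub_cancel_right]
        set R := (∑ v, spin (x (b l₀) v) * spin (x (b (l₀ + 1)) v)) / (n : ℝ)
        have hR : |∑ v, spin (x (b l₀) v) * spin (x (b (l₀ + 1)) v)| = n * |R| := by
          simp only [R, abs_div, Nat.abs_cast]; field_simp
        have hov : ov (x (b l₀)) (x (b (l₀ + 1))) = R ^ 2 := rfl
        have hamgm : |R| ≤ R ^ 2 / (2 * lam) + lam / 2 := by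
          have h := mul_nonneg (inv_nonneg.2 (by positivity : 0 ≤ 2 * lam)) (sq_nonneg (|R| - lam))
          have e : (2 * lam)⁻¹ * (|R| - lam) ^ 2 = R ^ 2 / (2 * lam) + lam / 2 - |R| := by
            rw [sub_sq, sq_abs]; field_simp; ring
          linarith
        rw [hR, hov, pow_succ (n : ℝ) (m + 2), mul_assoc]
        refine mul_le_mul ((Finset.prod_le_prod (fun _ _ => abs_nonneg _) fun l _ =>
          abs_spin_sum_le (x (b (l - 1))) (x (b l))).trans (le_of_eq ?_))
          (mul_le_mul_of_nonneg_left hamgm hn'.le) (by positivity) (by positivity)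
        simp
      refine (abs_sum_le_sum_abs _ _).trans ?_
      refine (sum_le_sum fun x _ => le_of_eq_of_le (abs_mul _ _) (mul_le_mul_of_nonneg_left
        (bound x) (abs_nonneg _))).trans (le_of_eq ?_)
      have hpos : ∀ x : Fin r → Fin n → Bool, |∏ s, P β g (x s)| = ∏ s, P β g (x s) := fun x =>
        abs_of_nonneg (prod_nonneg fun s _ => (P_pos β g _).le)
      have hsum : ∑ x : Fin r → Fin n → Bool, ∏ s, P β g (x s) = 1 := by
        rw [← Fintype.prod_sum fun (_ : Fin r) u => P β g u]; simp [P_sum]
      simp only [hpos]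
      rw [← sum_P_prod β g (b l₀) (b (l₀ + 1)) (Ne.symm hb)]
      rw [mul_add, mul_div_assoc', mul_sum, sum_div,
        show (n : ℝ) ^ (m + 3) * (lam / 2) =
          ∑ x : Fin r → Fin n → Bool, (∏ s, P β g (x s)) * ((n : ℝ) ^ (m + 3) * (lam / 2)) by
            rw [← sum_mul, hsum, one_mul],
        ← sum_add_distrib]
      exact sum_congr rfl fun x _ => by ring
    have hsplit := sum_filter_add_sum_filter_not (univ : Finset (Fin (m + 3) → Fin n))
      (fun i => Function.Injective i) (fun i => val β i a univ r g)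
    have hbad : |∑ i ∈ univ.filter (fun i : Fin (m + 3) → Fin n => ¬Function.Injective i),
        val β i a univ r g| ≤ D := by
      refine (abs_sum_le_sum_abs _ _).trans ((sum_le_sum fun i _ => abs_val ..).trans ?_)
      rw [sum_const, nsmul_eq_mul, mul_one]
      have h1 := card_filter_add_card_filter_not (s := (univ : Finset (Fin (m + 3) → Fin n)))
        (fun i => Function.Injective i)
      rw [show univ.filter (fun i : Fin (m + 3) → Fin n => Function.Injective i) = cyc n m from
        (filter_congr fun i _ => by rfl), card_cyc, card_univ, Fintype.card_fun, Fintype.card_fin,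
        Fintype.card_fin] at h1
      have h2 : ((n.descFactorial (m + 3) : ℕ) : ℝ) +
          ((univ.filter (fun i : Fin (m + 3) → Fin n => ¬Function.Injective i)).card : ℝ) =
          (n : ℝ) ^ (m + 3) := by exact_mod_cast h1
      have h3 := descFactorial_ge n m
      simp only [D]
      linarith
    have hcyc : ∑ i ∈ cyc n m, val β i a univ r g =
        ∑ i ∈ univ.filter (fun i : Fin (m + 3) → Fin n => Function.Injective i),
          val β i a univ r g := sum_congr (filter_congr fun i _ => by rfl) fun _ _ => rfl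
    rw [hcyc]
    have := abs_le.mp hall
    have := abs_le.mp hbad
    exact abs_le.mpr ⟨by linarith, by linarith⟩
  have e : ∀ i, term β i a ∅ univ r = ∫ g, val β i a univ r g ∂μ := fun i => by
    simp [term, psi, mon, μ]
  have hint : ∀ i : Fin (m + 3) → Fin n, Integrable (val β i a univ r) μ := fun i =>
    (integrable_const (1 : ℝ)).mono' (continuous_val β i a univ r).aestronglyMeasurable
      (ae_of_all _ fun g => abs_val β i a univ r g)
  simp only [e]
  rw [← integral_finsetSum _ fun i _ => hint i]
  refine abs_integral_le_integral_abs.trans ?_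
  have iq : Integrable (fun g => Slow.q β g / (2 * lam) + lam / 2) μ :=
    ((integrable_q β).div_const _).add (integrable_const _)
  refine (integral_mono ((integrable_finsetSum _ fun i _ => hint i).abs)
    ((integrable_const D).add (iq.const_mul _)) hpt).trans (le_of_eq ?_)
  simp only [Pi.add_apply]
  rw [integral_add (integrable_const _) (iq.const_mul _)]
  simp only [integral_const, probReal_univ, one_smul]
  rw [integral_const_mul, integral_add ((integrable_q β).div_const _) (integrable_const _),
    integral_div]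
  simp only [integral_const, probReal_univ, one_smul, D, err, Q, μ]
  ring

/-- Terms with two replicas in use are small. -/
lemma mixed_bound (m : ℕ) (L : Finset (Fin (m + 3))) :
    ∀ (S : Finset (Fin (m + 3))) (a : Fin (m + 3) → ℕ) (r : ℕ), Disjoint L S → L ∪ S = univ →
      (∀ l ∈ S, a l < r) → (∃ l ∈ S, ∃ l' ∈ S, a l ≠ a l') →
      ∃ C : ℝ, 0 ≤ C ∧ ∀ (n : ℕ) (β lam : ℝ), 0 < n → 0 ≤ β → 0 < lam →
        |∑ i ∈ cyc n m, term β i a L S r| ≤
          (β / √n) ^ L.card * (C * ((n : ℝ) ^ (m + 3) * err n m β lam)) := by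
  induction L using Finset.induction_on with
  | empty =>
    intro S a r _ hS ha hne
    rw [empty_union] at hS
    subst hS
    refine ⟨1, zero_le_one, fun n β lam hn _ hlam => ?_⟩
    rw [card_empty, pow_zero, one_mul, one_mul]
    obtain ⟨l, _, l', _, h⟩ := hne
    exact mixed_final a r (fun l => ha l (mem_univ l)) ⟨l, l', h⟩ β hlam hn
  | insert l L hlL ih =>
    intro S a r hd hU ha hne
    have hlS : l ∉ S := disjoint_left.mp hd (mem_insert_self l L)
    have hd' : Disjoint L (insert l S) :=
      disjoint_insert_right.mpr ⟨hlL, hd.mono_left (subset_insert l L)⟩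
    have hU' : L ∪ insert l S = univ := by rw [union_insert, ← insert_union]; exact hU
    have hne' : ∀ s, ∃ k ∈ insert l S, ∃ k' ∈ insert l S,
        Function.update a l s k ≠ Function.update a l s k' := by
      intro s
      obtain ⟨k, hk, k', hk', h⟩ := hne
      refine ⟨k, mem_insert_of_mem hk, k', mem_insert_of_mem hk', ?_⟩
      rwa [Function.update_of_ne (ne_of_mem_of_not_mem hk hlS),
        Function.update_of_ne (ne_of_mem_of_not_mem hk' hlS)]
    have hlt : ∀ s t, s < t → r ≤ t → ∀ k ∈ insert l S, Function.update a l s k < t := by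
      intro s t hst hrt k hk
      rcases mem_insert.mp hk with rfl | hk
      · simpa using hst
      · rw [Function.update_of_ne (ne_of_mem_of_not_mem hk hlS)]
        exact (ha k hk).trans_le hrt
    obtain ⟨C₀, hC₀, h₀⟩ := ih (insert l S) (Function.update a l r) (r + 1) hd' hU'
      (hlt r (r + 1) (Nat.lt_succ_self r) (Nat.le_succ r)) (hne' r)
    choose C hC hs using fun s : Fin r =>
      ih (insert l S) (Function.update a l s) r hd' hU' (hlt s r s.2 le_rfl) (hne' s)
    refine ⟨∑ s, C s + r * C₀, add_nonneg (sum_nonneg fun s _ => hC s) (by positivity),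
      fun n β lam hn hβ hlam => ?_⟩
    rw [sum_congr rfl fun i hi => term_step (mem_cyc.mp hi) hlL hlS ha, ← mul_sum,
      sum_sub_distrib, sum_comm, ← mul_sum, card_insert_of_notMem hlL, pow_succ', mul_assoc,
      abs_mul, abs_of_nonneg (by positivity : 0 ≤ β / √(n : ℝ))]
    refine mul_le_mul_of_nonneg_left ((abs_sub _ _).trans ?_) (by positivity)
    rw [add_mul, mul_add]
    refine add_le_add ?_ ?_
    · rw [sum_range fun s => ∑ i ∈ cyc n m, term β i (Function.update a l s) L (insert l S) r,
        sum_mul, mul_sum]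
      exact (abs_sum_le_sum_abs _ _).trans (sum_le_sum fun s _ => hs s n β lam hn hβ hlam)
    · rw [abs_mul, Nat.abs_cast, mul_assoc, mul_left_comm]
      exact mul_le_mul_of_nonneg_left (h₀ n β lam hn hβ hlam) (Nat.cast_nonneg r)

/-- The single replica term is one. -/
lemma val_full (β : ℝ) (i : Fin (m + 3) → Fin n) (g : Fin n × Fin n → ℝ) :
    val β i (fun _ => 0) univ 1 g = 1 := by
  have e : edgeX i univ = fun _ => (1 : ℝ) := by
    funext x
    simp only [edgeX, ed, X_mk', prod_mul_distrib]
    rw [Fintype.prod_equiv (Equiv.addRight (1 : Fin (m + 3))) (fun l => spin (x (i (l + 1))))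
      (fun l => spin (x (i l))) fun l => by simp, ← prod_mul_distrib]
    simp [spin_mul_self]
  simp [val, e, mu_one]

/-- With a single replica in use the main term is one. -/
lemma main_bound (m : ℕ) (L : Finset (Fin (m + 3))) :
    ∀ S : Finset (Fin (m + 3)), S.Nonempty → Disjoint L S → L ∪ S = univ →
      ∃ C : ℝ, 0 ≤ C ∧ ∀ (n : ℕ) (β lam : ℝ), 0 < n → 0 ≤ β → 0 < lam →
        |∑ i ∈ cyc n m, term β i (fun _ => 0) L S 1 - (β / √n) ^ L.card * (cyc n m).card| ≤
          (β / √n) ^ L.card * (C * ((n : ℝ) ^ (m + 3) * err n m β lam)) := by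
  induction L using Finset.induction_on with
  | empty =>
    intro S _ _ hS
    rw [empty_union] at hS
    subst hS
    refine ⟨0, le_rfl, fun n β lam _ _ _ => ?_⟩
    simp [term, psi, mon, val_full]
  | insert l L hlL ih =>
    intro S hS hd hU
    have hlS : l ∉ S := disjoint_left.mp hd (mem_insert_self l L)
    have hd' : Disjoint L (insert l S) :=
      disjoint_insert_right.mpr ⟨hlL, hd.mono_left (subset_insert l L)⟩
    have hU' : L ∪ insert l S = univ := by rw [union_insert, ← insert_union]; exact hU
    obtain ⟨C, hC, h⟩ := ih (insert l S) (insert_nonempty l S) hd' hU'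
    obtain ⟨k, hk⟩ := hS
    obtain ⟨C', hC', h'⟩ := mixed_bound m L (insert l S) (Function.update (fun _ => 0) l 1) 2 hd'
      hU' (fun j _ => by by_cases hj : j = l <;> simp [hj])
      ⟨l, mem_insert_self l S, k, mem_insert_of_mem hk, by
        simp [ne_of_mem_of_not_mem hk hlS]⟩
    refine ⟨C + C', add_nonneg hC hC', fun n β lam hn hβ hlam => ?_⟩
    rw [sum_congr rfl fun i hi => term_step (mem_cyc.mp hi) hlL hlS (r := 1) (a := fun _ => 0)
      (fun _ _ => Nat.one_pos), ← mul_sum, card_insert_of_notMem hlL, pow_succ', mul_assoc,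
      ← mul_sub, mul_assoc, abs_mul, abs_of_nonneg (by positivity : 0 ≤ β / √(n : ℝ))]
    refine mul_le_mul_of_nonneg_left ?_ (by positivity)
    simp only [sum_range_one, Function.update_eq_self_iff.mpr, Nat.cast_one, one_mul,
      sum_sub_distrib]
    rw [sub_right_comm, add_mul, mul_add]
    exact (abs_sub _ _).trans (add_le_add (h n β lam hn hβ hlam) (h' n β lam hn hβ hlam))

lemma lip_lg_cpl (n : ℕ) (β : ℝ) :
    Lip (lg (cpl n β)) fun _ : Fin n × Fin n => |β / √(n : ℝ)| :=
  lip_lg _ (fun _ => abs_nonneg _) fun e x => by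
    simp only [cpl]
    split_ifs
    · rw [abs_mul, abs_X, mul_one]
    · simp

lemma hasDeriv_lg (a : Fin n × Fin n → (Fin n → Bool) → ℝ) (e : Fin n × Fin n)
    (g : Fin n × Fin n → ℝ) (t : ℝ) :
    HasDerivAt (fun s => lg a (Function.update g e s)) (av a (Function.update g e t) (a e)) t := by
  have dE : ∀ y, HasDerivAt (fun s => en a (Function.update g e s) y) (a e y) t := by
    intro y
    have d : ∀ b ∈ (univ : Finset (Fin n × Fin n)),
        HasDerivAt (fun s => Function.update g e s b * a b y) (if b = e then a b y else 0) t := by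
      intro b _
      by_cases h : b = e
      · subst h; simpa using (hasDerivAt_id t).mul_const (a b y)
      · simpa [h] using hasDerivAt_const t (g b * a b y)
    exact (HasDerivAt.fun_sum d).congr_deriv (by simp)
  exact ((HasDerivAt.fun_sum fun y _ => (dE y).exp).log (part_pos a _).ne').congr_deriv rfl

/-- The covariance of the log partition function with the cycles of a given length. -/
lemma cycle_cov (m : ℕ) : ∃ C : ℝ, 0 ≤ C ∧ ∀ (n : ℕ) (β lam : ℝ), 0 < n → 0 ≤ β → 0 < lam →
    (β / √n) ^ (m + 3) * ((n : ℝ) ^ (m + 3) * (1 - (C + 1) * err n m β lam)) ≤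
      ∑ i ∈ cyc n m, ∫ g, psi i univ g * lg (cpl n β) g ∂stdPi (Fin n × Fin n) := by
  obtain ⟨C, hC, h⟩ := main_bound m (univ.erase 0) {0} (singleton_nonempty _) (by simp)
    (by ext k; by_cases hk : k = 0 <;> simp [hk])
  refine ⟨C, hC, fun n β lam hn hβ hlam => ?_⟩
  have hn' : (0 : ℝ) < n := by exact_mod_cast hn
  have step : ∀ i ∈ cyc n m, ∫ g, psi i univ g * lg (cpl n β) g ∂stdPi (Fin n × Fin n) =
      β / √n * term β i (fun _ => 0) (univ.erase 0) {0} 1 := by
    intro i hi
    have hinj := mem_cyc.mp hi
    have hu : ∀ g, psi i univ g = g (ed i 0) * psi i (univ.erase 0) g := fun g => by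
      rw [← psi_insert hinj (notMem_erase _ _), insert_erase (mem_univ _)]
    have hlip := lip_lg_cpl n β
    have key := ibp_mul (ed i 0) (psi i (univ.erase 0)) (lg (cpl n β))
      (fun g => av (cpl n β) g (cpl n β (ed i 0))) (fun g x => ?_) (continuous_mon _).measurable
      (continuous_lg _).measurable (continuous_av _ _).measurable
      (fun g x => hasDeriv_lg _ _ g x) (fun g => abs_av_le _ g _)
      (((memLp_mon (univ.image (ed i))).integrable_mul hlip.memLp).congr (ae_of_all _ fun g => ?_))
      ((integrable_mon _).mul_bdd (continuous_av _ _).aestronglyMeasurable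
        (ae_of_all _ fun g => abs_av_le _ g _))
    · simp only [hu]
      rw [key, term, ← integral_const_mul]
      refine integral_congr_ae (ae_of_all _ fun g => ?_)
      have e : av (cpl n β) g (cpl n β (ed i 0)) = β / √n * val β i (fun _ => 0) {0} 1 g := by
        rw [val, prod_range_one, mu, ← av_mul_const]
        congr 1; funext x
        simp [cpl_ed hinj, edgeX]
      show _ * _ = _
      rw [e]; ring
    · simp only [psi, mon]
      refine prod_congr rfl fun k hk => ?_
      simp only [mem_image, mem_erase, mem_univ, and_true] at hk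
      obtain ⟨j, hj, rfl⟩ := hk
      rw [Function.update_of_ne fun h => hj (ed_inj hinj h)]
    · show psi i univ g * _ = _
      rw [hu]
  rw [sum_congr rfl step, ← mul_sum]
  have h1 := (abs_le.mp (h n β lam hn hβ hlam)).1
  rw [card_erase_of_mem (mem_univ _), card_univ, Fintype.card_fin, card_cyc] at h1
  have h2 := descFactorial_ge n m
  have h3 : (m + 3 : ℝ) ^ 2 / n ≤ err n m β lam := by
    have := Q_nonneg (n := n) β
    have : 0 ≤ Q n β / (2 * lam) + lam / 2 := by positivity
    unfold err; linarith
  rw [pow_succ' (β / √(n : ℝ)), mul_assoc]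
  refine mul_le_mul_of_nonneg_left ?_ (by positivity)
  have hc : (0 : ℝ) ≤ (β / √(n : ℝ)) ^ (m + 2) := by positivity
  have h4 := mul_le_mul_of_nonneg_left h2 hc
  have h5 := mul_le_mul_of_nonneg_left (mul_le_mul_of_nonneg_left h3
    (by positivity : (0 : ℝ) ≤ (n : ℝ) ^ (m + 3))) hc
  rw [show m + 3 - 1 = m + 2 from rfl] at h1
  linarith

end Vale.Agent.P146
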