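import Vale.Agent.P146.HighTemp

/-!
Products of distinct Gaussian coordinates along cycles, their orthogonality, and integration by
parts against a function with bounded derivative.
-/

namespace Vale.Agent.P146

open Finset MeasureTheory ProbabilityTheory Real Filter
open Vale.Agent.P150 Vale.Agent.P150.Slow

/-- One variable Gaussian integration by parts for a Lipschitz function. -/
theorem ibp_lin (F F' : ℝ → ℝ) (hF : ∀ x, HasDerivAt F (F' x) x) {B : ℝ}
    (hB' : ∀ x, |F' x| ≤ B) :
    ∫ x, x * F x ∂gaussianReal 0 1 = ∫ x, F' x ∂gaussianReal 0 1 := by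
  have hm : Measurable F' := by
    have : F' = deriv F := funext fun x => (hF x).deriv.symm
    rw [this]; exact measurable_deriv F
  have hc : Continuous F := continuous_iff_continuousAt.2 fun x => (hF x).continuousAt
  have hg : ∀ x, |F x| ≤ |F 0| + B * |x| := fun x => by
    have h := Convex.norm_image_sub_le_of_norm_hasDerivWithin_le (f := F) (f' := F') (C := B)
      (s := Set.univ) (fun y _ => (hF y).hasDerivWithinAt) (fun y _ => hB' y) convex_univ
      (Set.mem_univ (0 : ℝ)) (Set.mem_univ x)
    simp only [Real.norm_eq_abs, sub_zero] at h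
    have h2 := abs_sub_abs_le_abs_sub (F x) (F 0)
    linarith
  have p := integrable_gaussianPDFReal 0 1
  have px : Integrable fun x : ℝ => x * gaussianPDFReal 0 1 x := by simpa using integrable_pow_pdf 1
  have px2 : Integrable fun x : ℝ => x ^ 2 * gaussianPDFReal 0 1 x := integrable_pow_pdf 2
  have i1 : Integrable (fun x => F x * gaussianPDFReal 0 1 x) := by
    refine ((p.const_mul |F 0|).add (px.abs.const_mul B)).mono'
      (hc.measurable.mul (measurable_gaussianPDFReal 0 1)).aestronglyMeasurable
      (ae_of_all _ fun x => ?_)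
    simp only [Pi.add_apply, norm_mul, Real.norm_eq_abs, abs_mul,
      abs_of_nonneg (gaussianPDFReal_nonneg 0 1 x)]
    rw [← mul_assoc, ← add_mul]
    exact mul_le_mul_of_nonneg_right (hg x) (gaussianPDFReal_nonneg 0 1 x)
  have i2 : Integrable (fun x => F x * (x * gaussianPDFReal 0 1 x)) := by
    refine ((px.abs.const_mul |F 0|).add (px2.const_mul B)).mono'
      (hc.measurable.mul (measurable_id.mul (measurable_gaussianPDFReal 0 1))).aestronglyMeasurable
      (ae_of_all _ fun x => ?_)
    simp only [Pi.add_apply, norm_mul, Real.norm_eq_abs, abs_mul,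
      abs_of_nonneg (gaussianPDFReal_nonneg 0 1 x)]
    have h := mul_le_mul_of_nonneg_right (hg x)
      (mul_nonneg (abs_nonneg x) (gaussianPDFReal_nonneg 0 1 x))
    have e : (|F 0| + B * |x|) * (|x| * gaussianPDFReal 0 1 x) =
        |F 0| * (|x| * gaussianPDFReal 0 1 x) + B * (x ^ 2 * gaussianPDFReal 0 1 x) := by
      rw [← sq_abs x]; ring
    linarith
  rw [integral_gaussianReal_eq_integral_smul one_ne_zero,
    integral_gaussianReal_eq_integral_smul one_ne_zero]
  simp only [smul_eq_mul]
  have h := integral_mul_deriv_eq_deriv_mul_of_integrable (A := ℝ) (u := F)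
    (v := fun x => -gaussianPDFReal 0 1 x) (u' := F')
    (v' := fun x => x * gaussianPDFReal 0 1 x) (fun x _ => hF x)
    (fun x _ => (hasDerivAt_pdf x).neg.congr_deriv (by ring))
    i2 (p.neg.bdd_mul (c := B) hm.aestronglyMeasurable (ae_of_all _ hB'))
    (i1.neg.congr (ae_of_all _ fun x => by simp [mul_neg]))
  calc ∫ x, gaussianPDFReal 0 1 x * (x * F x)
      = ∫ x, F x * (x * gaussianPDFReal 0 1 x) := integral_congr_ae (ae_of_all _ fun x => by ring)
    _ = _ := h
    _ = _ := by
        rw [← integral_neg]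
        exact integral_congr_ae (ae_of_all _ fun x => by ring)

variable {ι : Type*} [Fintype ι] [DecidableEq ι]

/-- Integration by parts in coordinate `e` with a factor not depending on it. -/
theorem ibp_mul (e : ι) (R G G' : (ι → ℝ) → ℝ) (hR : ∀ g x, R (Function.update g e x) = R g)
    (hRm : Measurable R) (hG : Measurable G) (hG' : Measurable G')
    (hd : ∀ g x, HasDerivAt (fun y => G (Function.update g e y)) (G' (Function.update g e x)) x)
    {B : ℝ} (hB' : ∀ g, |G' g| ≤ B) (i1 : Integrable (fun g => g e * R g * G g) (stdPi ι))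
    (i2 : Integrable (fun g => R g * G' g) (stdPi ι)) :
    ∫ g, g e * R g * G g ∂stdPi ι = ∫ g, R g * G' g ∂stdPi ι := by
  rw [integral_update e (G := fun g => g e * R g * G g)
      (((measurable_pi_apply e).mul hRm).mul hG) i1,
    integral_update e (G := fun g => R g * G' g) (hRm.mul hG') i2]
  refine integral_congr_ae (ae_of_all _ fun g => ?_)
  simp only [Function.update_self, hR]
  rw [integral_const_mul, ← ibp_lin _ _ (hd g) (fun x => hB' _), ← integral_const_mul]
  exact integral_congr_ae (ae_of_all _ fun x => by ring)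

/-- The product of the coordinates in a set. -/
def mon (S : Finset ι) (g : ι → ℝ) : ℝ := ∏ e ∈ S, g e

@[fun_prop]
lemma continuous_mon (S : Finset ι) : Continuous (mon (ι := ι) S) := by unfold mon; fun_prop

lemma mon_mul (S T : Finset ι) (g : ι → ℝ) :
    mon S g * mon T g =
      ∏ e, g e ^ ((if e ∈ S then 1 else 0) + (if e ∈ T then 1 else 0)) := by
  simp only [mon, pow_add, prod_mul_distrib, pow_ite, pow_one, pow_zero, prod_ite_mem, univ_inter]

lemma integrable_mon_mul (S T : Finset ι) :
    Integrable (fun g => mon S g * mon T g) (stdPi ι) := by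
  simp only [mon_mul, stdPi]
  exact Integrable.fintype_prod fun e => integrable_pow_gauss _

lemma integrable_mon (S : Finset ι) : Integrable (mon S) (stdPi ι) :=
  (integrable_mon_mul S ∅).congr (ae_of_all _ fun g => by simp [mon])

lemma memLp_mon (S : Finset ι) : MemLp (mon S) 2 (stdPi ι) :=
  (memLp_two_iff_integrable_sq (continuous_mon S).aestronglyMeasurable).2
    ((integrable_mon_mul S S).congr (ae_of_all _ fun g => (sq _).symm))

/-- Distinct monomials are orthonormal. -/
lemma integral_mon_mul (S T : Finset ι) :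
    ∫ g, mon S g * mon T g ∂stdPi ι = if S = T then 1 else 0 := by
  simp only [mon_mul, stdPi]
  rw [integral_fintype_prod_eq_prod
    (f := fun e x => x ^ ((if e ∈ S then 1 else 0) + (if e ∈ T then 1 else 0)))]
  have h2 : ∫ x : ℝ, x ^ 2 ∂gaussianReal 0 1 = 1 := integral_sq_gauss
  split_ifs with h
  · subst h
    refine prod_eq_one fun e _ => ?_
    by_cases he : e ∈ S <;> simp [he, h2]
  · have h' : ∃ e, ¬(e ∈ S ↔ e ∈ T) := by
      by_contra hc
      push Not at hc
      exact h (Finset.ext hc)
    obtain ⟨e, he⟩ := h'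
    refine prod_eq_zero (mem_univ e) ?_
    by_cases he1 : e ∈ S <;> by_cases he2 : e ∈ T <;> simp_all

/-! ### Cycles -/

variable {n : ℕ}

/-- The ordered pair carrying the disorder between two sites. -/
def mk' (u v : Fin n) : Fin n × Fin n := if u < v then (u, v) else (v, u)

lemma mk'_eq_iff {u v u' v' : Fin n} :
    mk' u v = mk' u' v' ↔ (u = u' ∧ v = v') ∨ (u = v' ∧ v = u') := by
  unfold mk'
  constructor
  · intro h
    split_ifs at h <;> rw [Prod.mk.injEq] at h <;> tauto
  · rintro (⟨rfl, rfl⟩ | ⟨rfl, rfl⟩)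
    · rfl
    · rcases lt_trichotomy u v with h | h | h
      · simp [h, h.not_gt]
      · subst h; rfl
      · simp [h, h.not_gt]

lemma mk'_mem {u v : Fin n} (h : u ≠ v) : mk' u v ∈ pairs n := by
  unfold mk' pairs
  rcases lt_or_gt_of_ne h with h' | h'
  · simp [h']
  · simp [h', h'.not_gt]

lemma X_mk' (u v : Fin n) (x : Fin n → Bool) : X (mk' u v) x = spin (x u) * spin (x v) := by
  unfold mk' X
  split_ifs
  · rfl
  · exact mul_comm _ _

variable {m : ℕ}

/-- The edge leaving position `l` of a closed tuple. -/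
def ed (i : Fin (m + 3) → Fin n) (l : Fin (m + 3)) : Fin n × Fin n := mk' (i l) (i (l + 1))

lemma succ_ne (l : Fin (m + 3)) : l + 1 ≠ l := by simp

lemma add_two_ne (l : Fin (m + 3)) : l + 1 + 1 ≠ l := by
  intro h
  rw [add_assoc, add_eq_left, Fin.ext_iff, Fin.val_add] at h
  simp at h
  rw [Nat.mod_eq_of_lt (by omega)] at h
  omega

lemma ed_mem {i : Fin (m + 3) → Fin n} (hi : Function.Injective i) (l : Fin (m + 3)) :
    ed i l ∈ pairs n :=
  mk'_mem fun h => succ_ne l (hi h).symm

lemma ed_inj {i : Fin (m + 3) → Fin n} (hi : Function.Injective i) :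
    Function.Injective (ed i) := by
  intro a b h
  rcases mk'_eq_iff.mp h with ⟨h1, _⟩ | ⟨h1, h2⟩
  · exact hi h1
  · exfalso
    have e1 := hi h1
    have e2 := hi h2
    rw [e1] at e2
    exact add_two_ne b e2

/-- The closed tuples with distinct entries. -/
def cyc (n m : ℕ) : Finset (Fin (m + 3) → Fin n) :=
  open Classical in univ.filter Function.Injective

lemma mem_cyc {i : Fin (m + 3) → Fin n} : i ∈ cyc n m ↔ Function.Injective i := by simp [cyc]

lemma card_cyc : (cyc n m).card = n.descFactorial (m + 3) := by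
  classical
  rw [cyc, ← Fintype.card_subtype,
    Fintype.card_congr (Equiv.subtypeInjectiveEquivEmbedding (Fin (m + 3)) (Fin n)),
    Fintype.card_embedding_eq]
  simp

/-- The edge set. -/
def edgeSet (i : Fin (m + 3) → Fin n) : Finset (Fin n × Fin n) := univ.image (ed i)

lemma card_edgeSet {i : Fin (m + 3) → Fin n} (hi : Function.Injective i) :
    (edgeSet i).card = m + 3 := by
  rw [edgeSet, card_image_of_injective _ (ed_inj hi), card_univ, Fintype.card_fin]

lemma edge_nb {i : Fin (m + 3) → Fin n} (hi : Function.Injective i) {a : Fin (m + 3)} {v : Fin n}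
    (h : mk' (i a) v ∈ edgeSet i) : v = i (a + 1) ∨ v = i (a - 1) := by
  simp only [edgeSet, mem_image, mem_univ, true_and] at h
  obtain ⟨l, hl⟩ := h
  rcases mk'_eq_iff.mp hl with ⟨h1, h2⟩ | ⟨h1, h2⟩
  · exact Or.inl (by rw [← h2, hi h1])
  · refine Or.inr ?_
    rw [← h1, ← hi h2, add_sub_cancel_right]

/-- A cycle has at most `2k` parametrizations. -/
lemma count_same (i : Fin (m + 3) → Fin n) (hi : Function.Injective i) :
    ((cyc n m).filter fun j => edgeSet j = edgeSet i).card ≤ 2 * (m + 3) := by
  classical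
  set T : Finset (Fin n × Fin n) := univ.image fun p : Fin (m + 3) × Bool =>
    if p.2 then (i p.1, i (p.1 + 1)) else (i (p.1 + 1), i p.1) with hT
  refine le_trans (Finset.card_le_card_of_injOn (fun j => (j 0, j 1)) (t := T) ?_ ?_)
    (card_image_le.trans (le_of_eq (by simp [mul_comm])))
  · intro j hj
    simp only [coe_filter, Set.mem_ofPred_eq] at hj
    have h0 : ed j 0 ∈ edgeSet i := hj.2 ▸ mem_image_of_mem _ (mem_univ _)
    simp only [edgeSet, mem_image, mem_univ, true_and] at h0
    obtain ⟨l, hl⟩ := h0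
    simp only [hT, coe_image, Set.mem_image, coe_univ, Set.mem_univ, true_and]
    rcases mk'_eq_iff.mp hl with ⟨h1, h2⟩ | ⟨h1, h2⟩
    · exact ⟨(l, true), by simp [h1, h2]⟩
    · exact ⟨(l, false), by simp [h1, h2]⟩
  · intro j hj j' hj' he
    simp only [coe_filter, Set.mem_ofPred_eq, mem_cyc] at hj hj'
    simp only [Prod.mk.injEq] at he
    have key : ∀ t : ℕ, t + 1 < m + 3 → ∀ (s : Fin (m + 3)), s.val = t →
        j s = j' s ∧ j (s + 1) = j' (s + 1) := by
      intro t
      induction t with
      | zero =>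
        intro _ s hs
        obtain rfl : s = 0 := Fin.ext (by simpa using hs)
        simpa using he
      | succ t ih =>
        intro ht s hs
        obtain ⟨r, hr, rfl⟩ : ∃ r : Fin (m + 3), r.val = t ∧ s = r + 1 := by
          refine ⟨⟨t, by omega⟩, rfl, Fin.ext ?_⟩
          simp [Fin.val_add, hs, Nat.mod_eq_of_lt (show t + 1 < m + 3 by omega)]
        obtain ⟨h1, h2⟩ := ih (by omega) r hr
        refine ⟨h2, ?_⟩
        have hb : mk' (j (r + 1)) (j r) ∈ edgeSet i := by
          rw [show mk' (j (r + 1)) (j r) = ed j r from mk'_eq_iff.mpr (Or.inr ⟨rfl, rfl⟩), ← hj.2]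
          exact mem_image_of_mem _ (mem_univ r)
        have hf : mk' (j (r + 1)) (j (r + 1 + 1)) ∈ edgeSet i :=
          hj.2 ▸ mem_image_of_mem _ (mem_univ (r + 1))
        have hf' : mk' (j (r + 1)) (j' (r + 1 + 1)) ∈ edgeSet i := by
          rw [h2]; exact hj'.2 ▸ mem_image_of_mem _ (mem_univ (r + 1))
        obtain ⟨l, hl⟩ : ∃ l, i l = j (r + 1) := by
          simp only [edgeSet, mem_image, mem_univ, true_and] at hb
          obtain ⟨l, hl⟩ := hb
          rcases mk'_eq_iff.mp hl with ⟨e1, _⟩ | ⟨_, e2⟩
          · exact ⟨l, e1⟩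
          · exact ⟨l + 1, e2⟩
        rw [← hl] at hb hf hf'
        have n1 : j (r + 1 + 1) ≠ j r := fun h => add_two_ne r (hj.1 h)
        have n2 : j' (r + 1 + 1) ≠ j r := by
          rw [h1]; exact fun h => add_two_ne r (hj'.1 h)
        rcases edge_nb hi hb with a | a <;> rcases edge_nb hi hf with b | b <;>
          rcases edge_nb hi hf' with c | c <;> simp_all
    funext s
    rcases Nat.eq_zero_or_pos s.val with h | h
    · rw [show s = 0 from Fin.ext (by simpa using h)]; exact he.1
    · have hs := s.2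
      have := (key (s.val - 1) (by omega) ⟨s.val - 1, by omega⟩ rfl).2
      have e : (⟨s.val - 1, by omega⟩ : Fin (m + 3)) + 1 = s := Fin.ext (by
        simp [Fin.val_add, Nat.sub_add_cancel h, Nat.mod_eq_of_lt hs])
      rwa [e] at this

end Vale.Agent.P146
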