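import Vale.Agent.P150.SlowSlope
import Vale.Agent.P150.SlowConc

/-!
The mean squared overlap of the Sherrington–Kirkpatrick model tends to zero at `β = 1`, and is at
most `1 - 1/β` in the limit above it: second moment below criticality, and convexity.
-/

namespace Vale.Agent.P146

open Finset MeasureTheory ProbabilityTheory Real Filter
open Vale.Agent.P150 Vale.Agent.P150.Slow
open scoped Topology

variable {ι : Type*} [Fintype ι]

lemma mgf_lin (d : ι → ℝ) :
    Integrable (fun v : ι → ℝ => Real.exp (∑ i, v i * d i)) (stdPi ι) ∧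
    ∫ v, Real.exp (∑ i, v i * d i) ∂stdPi ι = Real.exp ((∑ i, d i ^ 2) / 2) := by
  simp only [Real.exp_sum, stdPi, mul_comm _ (d _)]
  refine ⟨Integrable.fintype_prod fun i => integrable_exp_mul_gaussianReal _, ?_⟩
  rw [integral_fintype_prod_eq_prod (f := fun i s => Real.exp (d i * s))]
  have e2 : ∀ i, ∫ s, Real.exp (d i * s) ∂gaussianReal 0 1 = Real.exp (d i ^ 2 / 2) := fun i => by
    have h := congrFun (mgf_id_gaussianReal (μ := 0) (v := 1)) (d i)
    simpa [mgf] using h
  simp only [e2, ← Real.exp_sum, sum_div]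

lemma mgf_one (t : ℝ) :
    ∫ x, Real.exp (t * x) ∂gaussianReal 0 1 = Real.exp (t ^ 2 / 2) := by
  have h := congrFun (mgf_id_gaussianReal (μ := 0) (v := 1)) t
  simpa [mgf] using h

lemma exp_sq_gauss {a : ℝ} (ha : a < 1) :
    Integrable (fun x => Real.exp (a * x ^ 2 / 2)) (gaussianReal 0 1) ∧
    ∫ x, Real.exp (a * x ^ 2 / 2) ∂gaussianReal 0 1 = (√(1 - a))⁻¹ := by
  have hb : 0 < (1 - a) / 2 := by linarith
  have e : ∀ x : ℝ, gaussianPDFReal 0 1 x * Real.exp (a * x ^ 2 / 2) =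
      (√(2 * π))⁻¹ * Real.exp (-((1 - a) / 2) * x ^ 2) := fun x => by
    simp only [gaussianPDFReal, sub_zero, NNReal.coe_one, mul_one, mul_assoc, ← Real.exp_add]
    ring_nf
  constructor
  · rw [gaussianReal_of_var_ne_zero 0 one_ne_zero]
    refine (integrable_withDensity_iff (by fun_prop)
      (ae_of_all _ fun x => gaussianPDF_lt_top)).2 ?_
    refine ((integrable_exp_neg_mul_sq hb).const_mul (√(2 * π))⁻¹).congr (ae_of_all _ fun x => ?_)
    simp only [gaussianPDF, ENNReal.toReal_ofReal (gaussianPDFReal_nonneg _ _ _)]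
    rw [mul_comm (Real.exp _), e]
  · rw [integral_gaussianReal_eq_integral_smul one_ne_zero]
    simp only [smul_eq_mul, e, integral_const_mul, integral_gaussian]
    rw [show π / ((1 - a) / 2) = (2 * π) / (1 - a) by field_simp,
      Real.sqrt_div (by positivity)]
    have h1 : 0 < √(2 * π) := by positivity
    have h2 : 0 < √(1 - a) := Real.sqrt_pos.2 (by linarith)
    field_simp

variable {n : ℕ}

lemma spin_sq (b : Bool) : spin b ^ 2 = 1 := by rw [sq, spin_mul_self]

/-- Averaged over the second configuration, the squared overlap has bounded exponential moment. -/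
lemma sum_exp_overlap {a : ℝ} (ha0 : 0 ≤ a) (ha : a < 1) (hn : 0 < n) (x : Fin n → Bool) :
    ∑ y : Fin n → Bool, Real.exp (a / (2 * n) * (∑ i, spin (x i) * spin (y i)) ^ 2) ≤
      2 ^ n * (√(1 - a))⁻¹ := by
  have hn' : (0 : ℝ) < n := by exact_mod_cast hn
  set c := √(a / n) with hc
  have hc2 : c ^ 2 = a / n := Real.sq_sqrt (div_nonneg ha0 hn'.le)
  have e1 : ∀ y : Fin n → Bool, Real.exp (a / (2 * n) * (∑ i, spin (x i) * spin (y i)) ^ 2) =
      ∫ G, Real.exp (c * (∑ i, spin (x i) * spin (y i)) * G) ∂gaussianReal 0 1 := fun y => by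
    rw [mgf_one, mul_pow, hc2]
    congr 1
    field_simp
  have hint : ∀ y : Fin n → Bool, Integrable (fun G =>
      Real.exp (c * (∑ i, spin (x i) * spin (y i)) * G)) (gaussianReal 0 1) := fun y =>
    integrable_exp_mul_gaussianReal _
  have e2 : ∀ G : ℝ, ∑ y : Fin n → Bool, Real.exp (c * (∑ i, spin (x i) * spin (y i)) * G) =
      (2 * Real.cosh (c * G)) ^ n := fun G => by
    have e : ∀ y : Fin n → Bool, Real.exp (c * (∑ i, spin (x i) * spin (y i)) * G) =
        ∏ i, Real.exp (c * G * (spin (x i) * spin (y i))) := fun y => by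
      rw [← Real.exp_sum, ← mul_sum]; ring_nf
    simp only [e]
    rw [← Fintype.prod_sum fun i b => Real.exp (c * G * (spin (x i) * spin b))]
    have e' : ∀ i, ∑ b, Real.exp (c * G * (spin (x i) * spin b)) = 2 * Real.cosh (c * G) := by
      intro i
      rw [Fintype.sum_bool, Real.cosh_eq]
      cases x i <;> simp [spin] <;> ring
    rw [Finset.prod_congr rfl fun i _ => e' i]
    simp
  simp only [e1]
  rw [← integral_finsetSum _ fun y _ => hint y]
  simp only [e2]
  rw [← (exp_sq_gauss ha).2, ← integral_const_mul]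
  refine integral_mono ((integrable_finsetSum univ fun y _ => hint y).congr (ae_of_all _ e2))
    ((exp_sq_gauss ha).1.const_mul _) fun G => ?_
  rw [mul_pow]
  refine mul_le_mul_of_nonneg_left ((pow_le_pow_left₀ (Real.cosh_pos _).le
    (Real.cosh_le_exp_half_sq _) n).trans (le_of_eq ?_)) (by positivity)
  rw [← Real.exp_nat_mul, mul_pow, hc2]
  congr 1
  field_simp

lemma sum_cpl_sq (hn : 0 < n) (b : ℝ) (x : Fin n → Bool) :
    ∑ e, cpl n b e x ^ 2 = b ^ 2 * (n - 1) / 2 := by
  have hn' : (n : ℝ) ≠ 0 := by exact_mod_cast hn.ne'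
  have h : ∀ e, cpl n b e x ^ 2 = if e ∈ pairs n then b ^ 2 / n else 0 := fun e => by
    simp only [cpl]
    split_ifs
    · rw [mul_pow, div_pow, Real.sq_sqrt (Nat.cast_nonneg n), sq (X e x), ← abs_mul_abs_self,
        abs_X, one_mul, mul_one]
    · simp
  simp only [h, sum_ite_mem, univ_inter, sum_const, nsmul_eq_mul, card_pairs]
  field_simp

/-- The partition function. -/
noncomputable def part (n : ℕ) (b : ℝ) (g : Fin n × Fin n → ℝ) : ℝ :=
  ∑ x, Real.exp (en (cpl n b) g x)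

lemma part_mean (hn : 0 < n) (b : ℝ) :
    Integrable (part n b) (stdPi (Fin n × Fin n)) ∧
    ∫ g, part n b g ∂stdPi (Fin n × Fin n) = 2 ^ n * Real.exp (b ^ 2 * (n - 1) / 4) := by
  have h : ∀ x, _ := fun x : Fin n → Bool => mgf_lin fun e => cpl n b e x
  refine ⟨integrable_finsetSum _ fun x _ => (h x).1, ?_⟩
  show ∫ g, ∑ x, Real.exp (∑ e, g e * cpl n b e x) ∂stdPi (Fin n × Fin n) = _
  rw [integral_finsetSum _ fun x _ => (h x).1]
  simp only [fun x => (h x).2, sum_cpl_sq hn]
  simp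
  ring_nf

lemma part_sq (hn : 0 < n) {b : ℝ} (hb : b ^ 2 < 1) :
    Integrable (fun g => part n b g ^ 2) (stdPi (Fin n × Fin n)) ∧
    ∫ g, part n b g ^ 2 ∂stdPi (Fin n × Fin n) ≤
      (√(1 - b ^ 2))⁻¹ * (2 ^ n * Real.exp (b ^ 2 * (n - 1) / 4)) ^ 2 := by
  have hn' : (0 : ℝ) < n := by exact_mod_cast hn
  have e : ∀ g, part n b g ^ 2 = ∑ x, ∑ y,
      Real.exp (∑ k, g k * (cpl n b k x + cpl n b k y)) := fun g => by
    simp only [part, sq, sum_mul_sum, ← Real.exp_add, en, mul_add, sum_add_distrib]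
  have h : ∀ x y, _ := fun x y : Fin n → Bool =>
    mgf_lin fun k => cpl n b k x + cpl n b k y
  simp only [e]
  refine ⟨integrable_finsetSum _ fun x _ => integrable_finsetSum _ fun y _ => (h x y).1, ?_⟩
  rw [integral_finsetSum _ fun x _ => integrable_finsetSum _ fun y _ => (h x y).1]
  simp only [integral_finsetSum _ fun y _ => (h _ y).1, fun x y => (h x y).2]
  set E := Real.exp (b ^ 2 * (n - 1) / 4) with hE
  have term : ∀ x y, Real.exp ((∑ k, (cpl n b k x + cpl n b k y) ^ 2) / 2) ≤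
      E ^ 2 * Real.exp (b ^ 2 / (2 * n) * (∑ i, spin (x i) * spin (y i)) ^ 2) := by
    intro x y
    have hc := cpl_cov hn b x y
    simp only [mul_sub, sum_sub_distrib, ← sq, sum_cpl_sq hn] at hc
    rw [hE, ← Real.exp_nat_mul, ← Real.exp_add]
    refine Real.exp_le_exp.2 ?_
    simp only [add_sq, sum_add_distrib, sum_cpl_sq hn, mul_assoc, ← mul_sum]
    have : b ^ 2 / (2 * n) * (n : ℝ) ^ 2 = b ^ 2 * n / 2 := by field_simp
    push_cast
    nlinarith [sq_nonneg b]
  refine (sum_le_sum fun x _ => (sum_le_sum fun y _ => term x y).trans ((le_of_eq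
    (mul_sum _ _ _).symm).trans (mul_le_mul_of_nonneg_left (sum_exp_overlap (sq_nonneg b) hb hn x)
      (sq_nonneg E)))).trans (le_of_eq ?_)
  simp
  ring

/-- Below criticality the expected pressure is annealed. -/
lemma F_ge (hn : 0 < n) {b : ℝ} (hb : b ^ 2 < 1) :
    n * Real.log 2 + b ^ 2 * (n - 1) / 4 - Real.log 2
      - (4 * (√(1 - b ^ 2))⁻¹ * (√n * (b ^ 2 / 4 + 1 / 2)) + 1) ≤ F n b := by
  set μ := stdPi (Fin n × Fin n)
  set C := (√(1 - b ^ 2))⁻¹ with hC
  set B := √n * (b ^ 2 / 4 + 1 / 2)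
  set m := 2 ^ n * Real.exp (b ^ 2 * ((n : ℝ) - 1) / 4) with hm
  set t := 4 * C * B + 1 with ht
  have hC0 : 0 < C := inv_pos.2 (Real.sqrt_pos.2 (by linarith))
  have hm0 : 0 < m := by positivity
  have ht0 : 0 < t := by positivity
  have hL : Real.log (m / 2) = n * Real.log 2 + b ^ 2 * (n - 1) / 4 - Real.log 2 := by
    rw [Real.log_div hm0.ne' two_ne_zero, hm, Real.log_mul (by positivity) (Real.exp_pos _).ne',
      Real.log_pow, Real.log_exp]
  rw [← hL]
  by_contra hcon
  rw [not_le] at hcon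
  set l := (2 * C * m)⁻¹ with hl
  have hl0 : 0 < l := by positivity
  have hpt : ∀ g, part n b g ≤
      m / 2 + (l / 2 * part n b g ^ 2 + (2 * l * t)⁻¹ * |lg (cpl n b) g - F n b|) := by
    intro g
    have hz0 : 0 < part n b g := part_pos _ g
    rcases le_or_gt (part n b g) (m / 2) with h | h
    · have : 0 ≤ l / 2 * part n b g ^ 2 + (2 * l * t)⁻¹ * |lg (cpl n b) g - F n b| := by positivity
      linarith
    · have h1 : Real.log (m / 2) ≤ lg (cpl n b) g := Real.log_le_log (by positivity) h.le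
      have h2 : t ≤ |lg (cpl n b) g - F n b| := le_trans (by linarith) (le_abs_self _)
      have h3 : (2 * l)⁻¹ ≤ (2 * l * t)⁻¹ * |lg (cpl n b) g - F n b| := by
        refine le_trans (le_of_eq ?_) (mul_le_mul_of_nonneg_left h2 (by positivity))
        field_simp
      have h4 : part n b g ≤ l / 2 * part n b g ^ 2 + (2 * l)⁻¹ := by
        have h5 := mul_nonneg (inv_nonneg.2 (by positivity : 0 ≤ 2 * l))
          (sq_nonneg (l * part n b g - 1))
        have e : (2 * l)⁻¹ * (l * part n b g - 1) ^ 2 =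
            l / 2 * part n b g ^ 2 + (2 * l)⁻¹ - part n b g := by field_simp; ring
        linarith
      linarith
  obtain ⟨i1, e1⟩ := part_mean hn b
  obtain ⟨i2, e2⟩ := part_sq hn hb
  have i3 : Integrable (fun g => |lg (cpl n b) g - F n b|) μ :=
    ((integrable_lg _).sub (integrable_const _)).abs
  have h := integral_mono i1 ((integrable_const (m / 2)).add
    ((i2.const_mul (l / 2)).add (i3.const_mul (2 * l * t)⁻¹))) hpt
  rw [e1, ← hm] at h
  simp only [Pi.add_apply] at h
  rw [integral_add (f := fun _ => m / 2)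
      (g := fun g => l / 2 * part n b g ^ 2 + (2 * l * t)⁻¹ * |lg (cpl n b) g - F n b|)
      (integrable_const _) ((i2.const_mul _).add (i3.const_mul _)),
    integral_add (f := fun g => l / 2 * part n b g ^ 2)
      (g := fun g => (2 * l * t)⁻¹ * |lg (cpl n b) g - F n b|)
      (i2.const_mul _) (i3.const_mul _), integral_const_mul, integral_const_mul] at h
  simp only [integral_const, probReal_univ, one_smul] at h
  have k1 := mul_le_mul_of_nonneg_left (e2.trans_eq (show _ = C * m ^ 2 from rfl))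
    (show 0 ≤ l / 2 by positivity)
  have k2 := mul_le_mul_of_nonneg_left ((lg_deviation hn b).trans_eq (show _ = B from rfl)) (show 0 ≤ (2 * l * t)⁻¹ by positivity)
  have k3 : l / 2 * (C * m ^ 2) = m / 4 := by simp only [hl]; field_simp; ring
  have k4 : (2 * l * t)⁻¹ * B < m / 4 := by
    simp only [hl]
    rw [show (2 * (2 * C * m)⁻¹ * t)⁻¹ * B = m * (C * B) / t by field_simp]
    rw [div_lt_iff₀ ht0, ht]
    nlinarith [mul_nonneg hm0.le (mul_nonneg hC0.le (show 0 ≤ B by positivity))]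
  linarith

/-- Jensen's bound. -/
lemma F_le (hn : 0 < n) (b : ℝ) : F n b ≤ n * (Real.log 2 + b ^ 2 / 4) := by
  simpa using guerra hn b le_rfl

/-- The pressure is nondecreasing in the inverse temperature. -/
lemma F_mono (n : ℕ) {β b : ℝ} (hβ : 0 < β) (h : β ≤ b) : F n β ≤ F n b := by
  have h1 := F_sub_le n (β := b) hβ
  have h2 : (n : ℝ) * ((β - b) * (β / 2 * (1 - Q n β))) ≤ 0 :=
    mul_nonpos_of_nonneg_of_nonpos (Nat.cast_nonneg n) (mul_nonpos_of_nonpos_of_nonneg (by linarith)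
      (mul_nonneg (by linarith) (by linarith [Q_le_one n β])))
  linarith

/-- The mean squared overlap vanishes at criticality. -/
lemma Q_one : Tendsto (fun n => Q n 1) atTop (𝓝 0) := by
  refine Metric.tendsto_atTop.2 fun ε hε => ?_
  set s := min ε 1 / 5 with hs
  have hs0 : 0 < s := by simp only [hs]; have := lt_min hε one_pos; positivity
  have hs1 : s ≤ 1 / 4 := by simp only [hs]; linarith [min_le_right ε 1]
  have hse : s ≤ ε / 5 := by simp only [hs]; linarith [min_le_left ε 1]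
  set b := 1 - s ^ 2 with hb
  have hb1 : b < 1 := by nlinarith
  have hb0 : 0 < b := by nlinarith
  have hb2 : b ^ 2 < 1 := by nlinarith
  set D := Real.log 2 + 1 / 4 + (4 * (√(1 - b ^ 2))⁻¹ * (b ^ 2 / 4 + 1 / 2)) + 1
  have hD : 0 ≤ D := by positivity
  obtain ⟨N, hN⟩ := exists_nat_ge ((D / s ^ 2) ^ 2)
  refine ⟨max N 1, fun n hn => ?_⟩
  have hn0 : 0 < n := lt_of_lt_of_le one_pos (le_of_max_le_right hn)
  have hn' : (1 : ℝ) ≤ n := by exact_mod_cast hn0
  have hsn : 1 ≤ √(n : ℝ) := Real.one_le_sqrt.2 hn'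
  have hDn : D * √n ≤ s ^ 2 * n := by
    have h1 : D / s ^ 2 ≤ √(n : ℝ) := by
      refine le_trans (le_of_eq (Real.sqrt_sq (by positivity)).symm)
        (Real.sqrt_le_sqrt (hN.trans (by exact_mod_cast le_of_max_le_left hn)))
    rw [div_le_iff₀ (by positivity)] at h1
    calc D * √(n : ℝ) ≤ √(n : ℝ) * s ^ 2 * √(n : ℝ) :=
          mul_le_mul_of_nonneg_right h1 (Real.sqrt_nonneg _)
      _ = _ := by rw [mul_comm (√(n : ℝ)) (s ^ 2), mul_assoc,
          Real.mul_self_sqrt (Nat.cast_nonneg n)]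
  have h1 := F_sub_le n (β := 1 - s) one_pos
  have h2 := F_le hn0 (1 - s)
  have h3 := F_ge hn0 hb2
  have h4 := F_mono n hb0 hb1.le
  have hq0 := Q_nonneg (n := n) 1
  have l2 : 0 ≤ Real.log 2 := Real.log_nonneg (by norm_num)
  have hr : Real.log 2 + b ^ 2 / 4 + (4 * (√(1 - b ^ 2))⁻¹ * (√n * (b ^ 2 / 4 + 1 / 2)) + 1) ≤
      D * √n := by
    have k1 : 0 ≤ Real.log 2 * (√(n : ℝ) - 1) := mul_nonneg l2 (by linarith)
    have k2 : b ^ 2 / 4 ≤ 1 / 4 * √(n : ℝ) := by linarith
    have e : D * √(n : ℝ) = Real.log 2 * √(n : ℝ) + 1 / 4 * √(n : ℝ) +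
        4 * (√(1 - b ^ 2))⁻¹ * (√n * (b ^ 2 / 4 + 1 / 2)) + √(n : ℝ) := by simp only [D]; ring
    linarith
  have h5 : n * b ^ 2 / 4 - n * (1 - s) ^ 2 / 4 - D * √n ≤ n * (s / 2 * (1 - Q n 1)) := by
    have e : (n : ℝ) * ((1 - (1 - s)) * (1 / 2 * (1 - Q n 1))) = n * (s / 2 * (1 - Q n 1)) := by
      ring
    linarith
  have h6 : (n : ℝ) * (s * Q n 1) ≤ (n : ℝ) * (s * (4 * s)) := by
    have e : (n : ℝ) * b ^ 2 = n - 2 * (s ^ 2 * n) + n * s ^ 4 := by simp only [hb]; ring
    have e3 : (n : ℝ) * (1 - s) ^ 2 = n - 2 * (n * s) + n * s ^ 2 := by ring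
    have k : 0 ≤ (n : ℝ) * s ^ 4 := by positivity
    have k2 : 0 ≤ (n : ℝ) * s ^ 2 := by positivity
    have e4 : (n : ℝ) * (s / 2 * (1 - Q n 1)) = n * s / 2 - n * (s * Q n 1) / 2 := by ring
    have e5 : (n : ℝ) * (s * (4 * s)) = 4 * (n * s ^ 2) := by ring
    have e6 : s ^ 2 * (n : ℝ) = n * s ^ 2 := by ring
    linarith
  have h7 := le_of_mul_le_mul_left (le_of_mul_le_mul_left h6 (by linarith)) hs0
  rw [Real.dist_eq, sub_zero, abs_of_nonneg hq0]
  by_contra hcon
  linarith

/-- Above criticality the mean squared overlap is at most `1 - 1/β` up to the critical one. -/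
lemma Q_le {β : ℝ} (hβ : 1 ≤ β) (hn : 0 < n) : Q n β ≤ 1 - (1 - Q n 1) / β := by
  rcases hβ.eq_or_lt with rfl | h
  · simp
  have hn' : (0 : ℝ) < n := by exact_mod_cast hn
  have hb : 0 < β := by linarith
  have h1 := F_sub_le n (β := 1) hb
  have h2 := F_sub_le n (β := β) one_pos
  have key : (n : ℝ) * (β - 1) * (1 - Q n 1) ≤ (n : ℝ) * (β - 1) * (β * (1 - Q n β)) := by
    linarith
  have h3 := le_of_mul_le_mul_left key (mul_pos hn' (by linarith))
  rw [le_sub_iff_add_le, ← le_sub_iff_add_le', div_le_iff₀ hb]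
  linarith

end Vale.Agent.P146
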