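import Vale.Agent.P146.Expansion

/-!
The variance of the log partition function is at least a harmonic sum of cycle contributions
near the critical temperature.
-/

namespace Vale.Agent.P146

open Finset MeasureTheory ProbabilityTheory Real Filter
open Vale.Agent.P150 Vale.Agent.P150.Slow
open scoped Topology

variable {n : ℕ}

/-- Index pairs (length, parametrized cycle). -/
def idx (n K : ℕ) : Finset (Σ m : ℕ, Fin (m + 3) → Fin n) :=
  (range K).sigma fun m => cyc n m

/-- The weight of a cycle. -/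
noncomputable def wt (n m : ℕ) : ℝ := (2 * (m + 3 : ℝ) * √(n : ℝ) ^ (m + 3))⁻¹

/-- The test statistic. -/
noncomputable def stat (n K : ℕ) (g : Fin n × Fin n → ℝ) : ℝ :=
  ∑ p ∈ idx n K, wt n p.1 * psi p.2 univ g

lemma wt_nonneg (n m : ℕ) : 0 ≤ wt n m := by unfold wt; positivity

lemma stat_sq (n K : ℕ) :
    Integrable (fun g => stat n K g ^ 2) (stdPi (Fin n × Fin n)) ∧
    ∫ g, stat n K g ^ 2 ∂stdPi (Fin n × Fin n) ≤
      ∑ m ∈ range K, (1 : ℝ) / (2 * (m + 3)) := by
  classical
  have e : ∀ g, stat n K g ^ 2 = ∑ p ∈ idx n K, ∑ p' ∈ idx n K, wt n p.1 * wt n p'.1 *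
      (mon (edgeSet p.2) g * mon (edgeSet p'.2) g) := fun g => by
    rw [stat, sq, sum_mul_sum]
    exact sum_congr rfl fun p _ => sum_congr rfl fun p' _ => by rw [psi, psi, edgeSet, edgeSet]; ring
  have hi : ∀ p p' : (Σ m : ℕ, Fin (m + 3) → Fin n), Integrable (fun g => wt n p.1 * wt n p'.1 *
      (mon (edgeSet p.2) g * mon (edgeSet p'.2) g)) (stdPi (Fin n × Fin n)) := fun p p' =>
    (integrable_mon_mul _ _).const_mul _
  simp only [e]
  refine ⟨integrable_finsetSum _ fun p _ => integrable_finsetSum _ fun p' _ => hi p p', ?_⟩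
  rw [integral_finsetSum _ fun p _ => integrable_finsetSum _ fun p' _ => hi p p']
  have hin : ∀ p : (Σ m : ℕ, Fin (m + 3) → Fin n), ∫ g, ∑ p' ∈ idx n K, wt n p.1 * wt n p'.1 *
      (mon (edgeSet p.2) g * mon (edgeSet p'.2) g) ∂stdPi (Fin n × Fin n) =
      ∑ p' ∈ idx n K, wt n p.1 * wt n p'.1 * if edgeSet p.2 = edgeSet p'.2 then 1 else 0 := by
    intro p
    rw [integral_finsetSum _ fun p' _ => hi p p']
    exact sum_congr rfl fun p' _ => by rw [integral_const_mul, integral_mon_mul]
  simp only [hin]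
  simp only [idx, sum_sigma]
  refine sum_le_sum fun m hm => ?_
  have hk : (0 : ℝ) < m + 3 := by positivity
  have row : ∀ i ∈ cyc n m, ∑ m' ∈ range K, ∑ j ∈ cyc n m',
      wt n m * wt n m' * (if edgeSet i = edgeSet j then (1 : ℝ) else 0) ≤
        wt n m * wt n m * (2 * (m + 3)) := by
    intro i hi
    rw [sum_eq_single_of_mem m hm fun m' _ hne => sum_eq_zero fun j hj => ?_]
    · rw [← mul_sum, sum_boole]
      refine mul_le_mul_of_nonneg_left ?_ (mul_nonneg (wt_nonneg n m) (wt_nonneg n m))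
      have h := count_same i (mem_cyc.mp hi)
      rw [filter_congr (q := fun j => edgeSet i = edgeSet j) fun j _ => eq_comm] at h
      exact_mod_cast h
    · rw [if_neg, mul_zero]
      intro h
      have h2 := congrArg Finset.card h
      rw [card_edgeSet (mem_cyc.mp hi), card_edgeSet (mem_cyc.mp hj)] at h2
      omega
  refine (sum_le_sum row).trans ?_
  rw [sum_const, nsmul_eq_mul, card_cyc]
  rcases Nat.eq_zero_or_pos n with rfl | hn
  · simp only [Nat.zero_descFactorial_succ, Nat.cast_zero, zero_mul]; positivity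
  have hn' : (0 : ℝ) < n := by exact_mod_cast hn
  have hd : (n.descFactorial (m + 3) : ℝ) ≤ (n : ℝ) ^ (m + 3) := by
    exact_mod_cast Nat.descFactorial_le_pow n (m + 3)
  have hs : √(n : ℝ) ^ (m + 3) * √(n : ℝ) ^ (m + 3) = (n : ℝ) ^ (m + 3) := by
    rw [← mul_pow, Real.mul_self_sqrt hn'.le]
  refine (mul_le_mul_of_nonneg_right hd (by have := wt_nonneg n m; positivity)).trans (le_of_eq ?_)
  simp only [wt]
  have : 0 < √(n : ℝ) ^ (m + 3) := by positivity
  field_simp
  linear_combination -hs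

lemma stat_mean (n K : ℕ) : ∫ g, stat n K g ∂stdPi (Fin n × Fin n) = 0 := by
  classical
  have hi : ∀ p : (Σ m : ℕ, Fin (m + 3) → Fin n),
      Integrable (fun g => wt n p.1 * psi p.2 univ g) (stdPi (Fin n × Fin n)) := fun p =>
    (integrable_mon _).const_mul _
  unfold stat
  rw [integral_finsetSum _ fun p _ => hi p]
  refine sum_eq_zero fun p hp => ?_
  rw [integral_const_mul]
  have h := integral_mon_mul (univ.image (ed p.2)) (∅ : Finset (Fin n × Fin n))
  rw [if_neg (Finset.nonempty_iff_ne_empty.mp (univ_nonempty.image _))] at h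
  simp only [mon, prod_empty, mul_one] at h
  simp [psi, mon, h]

/-- The variance dominates the covariance with the test statistic. -/
lemma variance_ge (n K : ℕ) (β : ℝ) :
    2 * ∑ m ∈ range K, wt n m *
        ∑ i ∈ cyc n m, ∫ g, psi i univ g * lg (cpl n β) g ∂stdPi (Fin n × Fin n) -
      ∑ m ∈ range K, (1 : ℝ) / (2 * (m + 3)) ≤
    ∫ g, (lg (cpl n β) g - F n β) ^ 2 ∂stdPi (Fin n × Fin n) := by
  classical
  set μ := stdPi (Fin n × Fin n)
  have hlp := (lip_lg_cpl n β).memLp
  have hst : MemLp (stat n K) 2 μ := by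
    have : stat n K = ∑ p ∈ idx n K, fun g => wt n p.1 * psi p.2 univ g := by
      funext g; simp [stat]
    rw [this]
    exact memLp_finsetSum' _ fun p _ => (memLp_mon _).const_mul _
  obtain ⟨isq, hsq⟩ := stat_sq n K
  have iprod : Integrable (fun g => stat n K g * lg (cpl n β) g) μ := hst.integrable_mul hlp
  have is : Integrable (stat n K) μ := hst.integrable one_le_two
  have il : Integrable (fun g => (lg (cpl n β) g - F n β) ^ 2) μ :=
    (hlp.sub (memLp_const (F n β))).integrable_sq
  have hpt : ∀ g, 2 * (stat n K g * lg (cpl n β) g) - 2 * F n β * stat n K g - stat n K g ^ 2 ≤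
      (lg (cpl n β) g - F n β) ^ 2 := fun g => by
    nlinarith [sq_nonneg (lg (cpl n β) g - F n β - stat n K g)]
  have h := integral_mono (((iprod.const_mul 2).sub (is.const_mul (2 * F n β))).sub isq) il hpt
  simp only [Pi.sub_apply] at h
  rw [integral_sub (f := fun g => 2 * (stat n K g * lg (cpl n β) g) - 2 * F n β * stat n K g)
      (g := fun g => stat n K g ^ 2) ((iprod.const_mul 2).sub (is.const_mul (2 * F n β))) isq,
    integral_sub (f := fun g => 2 * (stat n K g * lg (cpl n β) g))
      (g := fun g => 2 * F n β * stat n K g) (iprod.const_mul 2) (is.const_mul _),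
    integral_const_mul, integral_const_mul, stat_mean] at h
  have hi : ∀ p : (Σ m : ℕ, Fin (m + 3) → Fin n),
      Integrable (fun g => wt n p.1 * (psi p.2 univ g * lg (cpl n β) g)) μ := fun p =>
    ((memLp_mon _).integrable_mul hlp).const_mul _
  have e : ∫ g, stat n K g * lg (cpl n β) g ∂μ = ∑ m ∈ range K, wt n m *
      ∑ i ∈ cyc n m, ∫ g, psi i univ g * lg (cpl n β) g ∂μ := by
    simp only [stat, sum_mul, mul_assoc]
    rw [integral_finsetSum _ fun p _ => hi p, idx, sum_sigma]
    simp only [integral_const_mul, mul_sum]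
  rw [e] at h
  linarith

/-- The variance of the log partition function is unbounded as `β` decreases to one. -/
theorem variance_large (M : ℝ) : ∃ δ : ℝ, 0 < δ ∧ ∀ β : ℝ, 1 ≤ β → β < 1 + δ →
    ∀ᶠ n : ℕ in atTop, M ≤ ∫ g, (lg (cpl n β) g - F n β) ^ 2 ∂stdPi (Fin n × Fin n) := by
  obtain ⟨K, hK⟩ := (Real.tendsto_sum_range_one_div_nat_succ_atTop.eventually_ge_atTop
    (12 * M)).exists
  choose C hC hcov using cycle_cov
  set A := 1 + ∑ m ∈ range K, (C m + 1) with hA
  have hA0 : 1 ≤ A := le_add_of_nonneg_right (sum_nonneg fun m _ => by linarith [hC m])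
  set lam := 1 / (4 * A) with hlam
  have hlam0 : 0 < lam := by positivity
  set δ := lam / (16 * A) with hδ
  have hδ0 : 0 < δ := by positivity
  refine ⟨δ, hδ0, fun β hβ hβ' => ?_⟩
  obtain ⟨N, hN⟩ := exists_nat_ge (32 * A * ((K : ℝ) + 3) ^ 2)
  filter_upwards [Q_one.eventually (eventually_le_nhds hδ0), eventually_ge_atTop (max N 1)]
    with n hq hn
  have hn0 : 0 < n := lt_of_lt_of_le one_pos (le_of_max_le_right hn)
  have hn' : (0 : ℝ) < n := by exact_mod_cast hn0
  have hQ : Q n β ≤ 2 * δ := by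
    have h1 := Q_le hβ hn0
    have h5 : 1 - 2 * δ ≤ (1 - Q n 1) / β := by
      have h3 : (1 - δ) / β ≤ (1 - Q n 1) / β :=
        div_le_div_of_nonneg_right (by linarith) (by linarith)
      have h4 : 1 - 2 * δ ≤ (1 - δ) / β := by
        rw [le_div_iff₀ (by linarith)]
        rcases le_or_gt (1 - 2 * δ) 0 with hs | hs <;> nlinarith
      linarith
    linarith
  have herr : ∀ m ∈ range K, (C m + 1) * err n m β lam ≤ 1 / 4 := by
    intro m hm
    have hmK : (m : ℝ) ≤ K := by exact_mod_cast (mem_range.mp hm).le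
    have h1 : C m + 1 ≤ A := le_trans
      (single_le_sum (f := fun j => C j + 1) (fun j _ => by linarith [hC j]) hm)
      (le_add_of_nonneg_left zero_le_one)
    have h2 : Q n β / (2 * lam) ≤ 1 / (16 * A) := by
      refine (div_le_div_of_nonneg_right hQ (by positivity)).trans (le_of_eq ?_)
      simp only [hδ]; field_simp
    have h3 : lam / 2 = 1 / (8 * A) := by simp only [hlam]; field_simp; ring
    have h4 : (m + 3 : ℝ) ^ 2 / n ≤ 1 / (32 * A) := by
      have hnN : (N : ℝ) ≤ n := by exact_mod_cast le_of_max_le_left hn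
      rw [div_le_div_iff₀ hn' (by positivity), one_mul]
      calc (m + 3 : ℝ) ^ 2 * (32 * A) ≤ ((K : ℝ) + 3) ^ 2 * (32 * A) := by
            refine mul_le_mul_of_nonneg_right (pow_le_pow_left₀ (by positivity) (by linarith) 2)
              (by positivity)
        _ ≤ (n : ℝ) := by linarith
    have h5 : err n m β lam ≤ 1 / (4 * A) := by
      have e : (1 : ℝ) / (4 * A) = 1 / (16 * A) + 1 / (8 * A) + 1 / (32 * A) + 1 / (32 * A) := by
        field_simp; ring
      have : (0 : ℝ) ≤ 1 / (32 * A) := by positivity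
      unfold err; linarith
    refine (mul_le_mul h1 h5 (err_nonneg n m β hlam0) (by linarith)).trans (le_of_eq ?_)
    field_simp
  have hterm : ∀ m ∈ range K, 3 / (8 * (m + 3 : ℝ)) ≤ wt n m *
      ∑ i ∈ cyc n m, ∫ g, psi i univ g * lg (cpl n β) g ∂stdPi (Fin n × Fin n) := by
    intro m hm
    refine le_trans ?_ (mul_le_mul_of_nonneg_left (hcov m n β lam hn0 (by linarith) hlam0)
      (wt_nonneg n m))
    have hs : √(n : ℝ) ^ (m + 3) * √(n : ℝ) ^ (m + 3) = (n : ℝ) ^ (m + 3) := by
      rw [← mul_pow, Real.mul_self_sqrt hn'.le]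
    have hp : 0 < √(n : ℝ) ^ (m + 3) := by positivity
    have e : wt n m * ((β / √(n : ℝ)) ^ (m + 3) *
        ((n : ℝ) ^ (m + 3) * (1 - (C m + 1) * err n m β lam))) =
        β ^ (m + 3) * (1 - (C m + 1) * err n m β lam) / (2 * (m + 3)) := by
      rw [wt, div_pow, ← hs]; field_simp
    rw [e]
    have h1 : (3 : ℝ) / 4 ≤ β ^ (m + 3) * (1 - (C m + 1) * err n m β lam) := by
      have := one_le_pow₀ hβ (n := m + 3)
      nlinarith [herr m hm]
    refine le_trans (le_of_eq ?_) (div_le_div_of_nonneg_right h1 (by positivity))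
    field_simp; ring
  refine le_trans ?_ (variance_ge n K β)
  refine le_trans ?_ (sub_le_sub_right (mul_le_mul_of_nonneg_left (sum_le_sum hterm)
    zero_le_two) _)
  rw [mul_sum, ← sum_sub_distrib]
  have h : ∀ m ∈ range K, (1 / 12 : ℝ) * (1 / ((m : ℝ) + 1)) ≤
      2 * (3 / (8 * (m + 3 : ℝ))) - 1 / (2 * (m + 3)) := by
    intro m _
    rw [show 2 * (3 / (8 * (m + 3 : ℝ))) - 1 / (2 * (m + 3)) = 1 / (4 * (m + 3)) by field_simp; ring,
      div_mul_div_comm, one_mul]
    exact one_div_le_one_div_of_le (by positivity) (by linarith [(m.cast_nonneg : (0 : ℝ) ≤ m)])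
  refine le_trans ?_ (sum_le_sum h)
  rw [← mul_sum]
  linarith

end Vale.Agent.P146
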